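import Vale.Agent.P022G.Fp.Base

/-!
P022S: the hypotheses on the fixed data of the forms side, residually trivial trace.
-/

set_option linter.all false

open scoped MatrixGroups

noncomputable section

namespace Vale.Agent.P022E.Loc

open NumberField IsLocalRing
open Vale.Agent.P022 Vale.Agent.P022.H443 Vale.Agent.P022D Vale.Agent.P022D.R Vale.Agent.P022D.W
open Vale.Agent.P027M.S (mx)
open Vale.Agent.P022D.Sel (M2 IsDec)
open Vale.Agent.P022E.As (Tg cc tt Gp0 yT)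

variable {O F : Type} [CommRing O] [Field F]

/-- the hypotheses on the local data (`S.rb` plays no role) -/
structure Pl.OkS [IsLocalRing O] (L : Pl O) (S : Dat O F) : Prop where
  ker : ∀ c, S.red c = 0 ↔ c ∈ maximalIdeal O
  hT : S.T = insert 0 (insert 2 (L.W ∪ L.C))
  W0 : L.W = ∅
  pr : ∀ l ∈ L.W ∪ L.C, l.Prime ∧ l ≠ 2
  hP : ∀ l ∈ L.W ∪ L.C, (L.P l).IsPrime ∧ (l : 𝓞 Qb) ∈ L.P l
  h2 : L.P 2 = Loc2.PP 2
  cj : IsConj L.c
  tm : ∀ l ∈ L.W ∪ L.C, Tm l (L.P l) (L.τ l) (L.φ l)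
  tr0 : ∀ g, S.red (L.r g).trace = 0
  dt1 : ∀ g, S.red (L.r g).det = 1
  cont : ∀ k : ℕ, IsOpen {g : GQ | (L.r g).map (Ideal.Quotient.mk (maximalIdeal O ^ k)) = 1}
  odd : (L.r L.c).det = -1

theorem Pl.OkS.nW [IsLocalRing O] {L : Pl O} {S : Dat O F} (h : L.OkS S) {l : ℕ} (hl : l ∈ L.W) :
    False := by
  rw [h.W0] at hl
  exact Finset.notMem_empty _ hl

theorem Pl.OkS.dj [IsLocalRing O] {L : Pl O} {S : Dat O F} (h : L.OkS S) : Disjoint L.W L.C :=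
  Finset.disjoint_left.2 fun _ hl _ => h.nW hl

end Vale.Agent.P022E.Loc

namespace Vale.Agent.P022E.Fm

open Vale.Agent.P022 Vale.Agent.P022E.V Vale.Agent.P027M.M
open Vale.Agent.P022E.G (Wd wT wS Inert)

variable {O F : Type} [CommRing O] [Field F]

/-- the hypotheses on the fixed data -/
structure Su.OkS [IsLocalRing O] [Co O] (U : Su O F) : Prop where
  ok : U.L.OkS U.S
  uni : Unif U.ϖ
  hi : 1 ≤ U.i
  NC : U.NC = ∏ l ∈ U.L.C, l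
  NW1 : U.NW = 1
  C2 : ∀ l : ℕ, ∃ p ∈ U.L.C, p ≠ l
  z : Co.j U.z = ze U.N 1
  om1 : U.om 1 = 1
  omm : ∀ x y, U.om (x * y) = U.om x * U.om y
  omp : ∀ x y, x ≡ y [MOD U.N] → U.om x = U.om y
  det : ∀ j : ℕ, ∃ a : ℕ, ∀ (g : GQ) (x : ℕ), Nat.Coprime x U.N → Cy (2 ^ a * U.N) g x →
    U.ϖ ^ j ∣ U.dt g - U.om x * (x : O) ^ U.i
  unr : ∀ l : ℕ, l.Prime → l ∉ U.S.T → ∀ g, Inert l g → U.L.r g = 1
  omr : ∀ x, Nat.Coprime x U.N → U.ϖ ∣ U.om x - 1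

namespace Su.OkS

variable [IsLocalRing O] [Co O] {U : Su O F} (hU : U.OkS)
include hU

theorem NW0 : U.NW ≠ 0 := by rw [hU.NW1]; exact one_ne_zero

theorem NW (l : ℕ) (hl : l.Prime) : l ∣ U.NW ↔ l ∈ U.L.W :=
  ⟨fun h => absurd (hU.NW1 ▸ h) hl.not_dvd_one, fun h => (hU.ok.nW h).elim⟩

theorem two (l : ℕ) (hl : l ∈ U.L.W) : ∃ y : O, IsPrimitiveRoot y (l ^ 2 - 1) := (hU.ok.nW hl).elim

theorem wc (l : ℕ) (hl : l ∈ U.L.W) : ∃ e u v, Loc.Wc U.S U.L l e u v := (hU.ok.nW hl).elim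

theorem C1 : ∃ l, l ∈ U.L.C := (hU.C2 0).imp fun _ h => h.1

end Su.OkS

end Vale.Agent.P022E.Fm
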