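import Vale.Agent.P022E.Fm.Gmr
import Vale.Agent.P022S.Fp.Base
import Vale.Agent.P022S.Mod.Gw

/-!
# P022S, forms side: the determinant is open and unramified on every module of forms
-/

set_option linter.all false

open scoped MatrixGroups

noncomputable section

namespace Vale.Agent.P022E.Fm

open Vale.Agent.P022 Vale.Agent.P022D.V Vale.Agent.P022E.V Vale.Agent.P027M.M
open Vale.Agent.P022D.As (Tg cc tt dd yy)
open Vale.Agent.P022E.As (Gm Gw)
open Vale.Agent.P022S.Mod (Dm)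

namespace DmS

/-- on a Galois module killed by `ϖ` the elements of `DD` have determinant one -/
theorem dd_one {O : Type} [CommRing O] {ϖ : O} {L : Loc.Pl O} {T Q : Finset ℕ} {r : ℕ} {Y : Type}
    [AddCommGroup Y] [Module (Tg O) Y] (h : Gm ϖ L T Q r Y) {g : GQ} (hg : g ∈ L.DD)
    (hd : ϖ ∣ (L.r g).det - 1) (w : Y) (hw : cc ϖ • w = 0) : (dd g : Tg O) • w = w := by
  obtain ⟨c, hc⟩ := hd
  have e := (Ideal.mem_torsionOf_iff _ _).1 ((h w).cld g hg)
  rw [sub_smul, sub_eq_zero, eq_add_of_sub_eq hc, mul_comm] at e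
  rw [e]
  change (MvPolynomial.C (c * ϖ + 1) : Tg O) • w = w
  rw [map_add, map_mul, map_one, add_smul, mul_smul, one_smul]
  erw [hw]
  rw [smul_zero, zero_add]

variable {O F : Type} [CommRing O] [IsLocalRing O] [Co O] [Field F] {U : Su O F}

theorem ndvd (hU : U.OkS) {r n M : ℕ} {q : Fin r → ℕ} {b : Fin r → (ZMod M)ˣ} {τ : Fin r → GQ}
    (hL : Lv U r n M q b τ) {l : ℕ} (hp : l.Prime) (hT : l ∉ U.S.T)
    (hQ : l ∉ Finset.univ.image q) : ¬ l ∣ 2 * M := by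
  intro h
  rw [hU.ok.hT] at hT
  simp only [Finset.mem_insert, Finset.mem_union, not_or] at hT
  rw [hL.eq, Su.N, hp.dvd_mul, hp.dvd_mul, hp.dvd_mul, hU.NC] at h
  rcases h with h | (h | h) | h
  · exact hT.2.1 ((Nat.prime_dvd_prime_iff_eq hp Nat.prime_two).1 h)
  · exact hT.2.2.1 ((hU.NW l hp).1 h)
  · obtain ⟨k, hk, h⟩ := hp.prime.exists_mem_finset_dvd h
    rw [(Nat.prime_dvd_prime_iff_eq hp (hU.ok.pr k (Finset.mem_union_right _ hk)).1).1 h] at hT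
    exact hT.2.2.2 hk
  · obtain ⟨i, -, h⟩ := hp.prime.exists_mem_finset_dvd h
    exact hQ (Finset.mem_image.2 ⟨i, Finset.mem_univ _,
      ((Nat.prime_dvd_prime_iff_eq hp (hL.pr i).1).1 h).symm⟩)

theorem det1 (hU : U.OkS) (g : GQ) : U.ϖ ∣ (U.L.r g).det - 1 :=
  hU.uni.dvd _ ((IsLocalRing.mem_maximalIdeal _).1 ((hU.ok.ker _).1 (by
    rw [map_sub, hU.ok.dt1, map_one, sub_self])))

theorem tr0 (hU : U.OkS) (g : GQ) : U.ϖ ∣ (U.L.r g).trace :=
  hU.uni.dvd _ ((IsLocalRing.mem_maximalIdeal _).1 ((hU.ok.ker _).1 (hU.ok.tr0 g)))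

end DmS

variable {O F : Type} [CommRing O] [IsLocalRing O] [Co O] [Field F] [CharP F 2] {U : Su O F}
  [hC : ∀ l : U.L.C, Fact l.1.Prime]

open Gmr in
/-- **Dm** for every module of forms -/
theorem dmS (hU : U.OkS) {r n : ℕ} {q : Fin r → ℕ} (P : Lq U r n q)
    (K : Submodule (U.B P.M) (U.GG P.M)) : Dm O U.S.T (Finset.univ.image q) (Mt P.ev K) := by
  intro w
  obtain ⟨V, -, hV, hI, hu⟩ := P.ok.op.opn (vl w)
  have e : ∀ u ∈ V, (dd u : Tg O) • w = w := fun u h =>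
    vl_inj (by rw [vl_smul, ev_d]; exact (hu u h).1)
  exact ⟨⟨V, hV, e⟩, fun l hp hT hQ Q h1 h2 s hs =>
    e s (hI ⟨l, hp, DmS.ndvd hU P.lv hp hT hQ⟩ s ⟨Q, h1, h2, hs⟩)⟩

/-- the determinant of the tame generators is one on the modules which are killed by `ϖ` -/
theorem ddTau (hU : U.OkS) {Q : Finset ℕ} {r : ℕ} {Y : Type} [AddCommGroup Y] [Module (Tg O) Y]
    (h : Gm U.ϖ U.L U.S.T Q r Y) (l : U.L.C) (w : Y) (hw : cc U.ϖ • w = 0) :
    (dd (U.L.τ l) : Tg O) • w = w :=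
  DmS.dd_one h (Or.inr (Or.inr (Or.inl ⟨l, Finset.mem_union_right _ l.2, rfl⟩))) (DmS.det1 hU _) w hw

end Vale.Agent.P022E.Fm
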