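import Vale.Agent.P022E.Fm.Rows
import Vale.Agent.P022S.Fp.Base


/-!
# P022E, forms side: the rows
-/

set_option linter.all false

open scoped MatrixGroups

noncomputable section

namespace Vale.Agent.P022E.Fm

open Vale.Agent.P022 Vale.Agent.P022E.V Vale.Agent.P027M.M
open Vale.Agent.P022E.G (Wd wT wS Inert)
open Vale.Agent.P022E.W.Step (kl Cs Dv)
open Vale.Agent.P027M.S (mx)
open Vale.Agent.P022E.As (Tg cc tt dd yy dl nD ee Dq mT Gm Sb2 Big Dia Aq HD2 Lv2)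

variable {O F : Type} [CommRing O] [IsLocalRing O] [Co O] [Field F] [CharP F 2] (U : Su O F)

variable [hC : ∀ l : U.L.C, Fact l.1.Prime]

variable (Cc : ∀ l : U.L.C, Rep.Ch (ZMod l.1) F)

section lq

variable {U Cc} {r n : ℕ} {q : Fin r → ℕ} (P : Lq U r n q)

end lq

/-- row NONV -/
def NONVGs : Prop := ∀ (P0 : L0 U) (J : Finset U.L.C),
  P0.X.Y (Rep.XJ U.bn Cc J).v ≠ ⊥

/-- row BIG -/
def BIGGs : Prop := ∀ (P0 : L0 U) (J : Finset U.L.C),
  Big (mT U.L.r) (P0.Yb (Rep.XJ U.bn Cc J))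

theorem BIGGs.bigr {U : Su O F} [∀ l : U.L.C, Fact l.1.Prime]
    {Cc : ∀ l : U.L.C, Rep.Ch (ZMod l.1) F} (h : BIGGs U Cc) : BIGR U Cc :=
  fun P J _ => h P J

/-- **the forms side** -/
def FORMSGs : Prop := ∀ (O F : Type) [CommRing O] [IsDomain O] [IsDiscreteValuationRing O]
  [Core.Coef O] [Co O] [Field F] [Finite F] [CharP F 2] (U : Su O F)
  [∀ l : U.L.C, Fact l.1.Prime], U.OkS → ∃ Cc, ASM U Cc

end Vale.Agent.P022E.Fm
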