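import Vale.Agent.P022D.V.All1
import Vale.Agent.P022E.Fm.SbA

/-!
# P022S, forms side: bounded number of generators when the Whittaker level is small
-/

set_option linter.all false

open Matrix
open scoped MatrixGroups

noncomputable section

namespace Vale.Agent.P022S.Gen1

section
open Vale.Agent.P022D.V Vale.Agent.P022D.V.Gn Vale.Agent.P027M.M

/-- bounded number of generators -/
theorem genS (O : Type) [CommRing O] [Co O] : ∀ r : ℕ, ∃ b : ℕ, ∀ (M N : ℕ) (l : List ℕ)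
    (z π : O), Odd M → 3 ≤ M → (∀ q ∈ l, 3 ≤ M / q) →
    M = N * l.prod → l.Nodup → (∀ q ∈ l, q.Prime ∧ ¬ q ∣ N) → l.length = r → Co.j z = ze N 1 →
    Unif π → ∀ (lam : ℕ → O) (om : GM M → O) (X : Submodule O (FT M (RR π))),
    X ≤ Vb M π ⊓ Wh O _ M z ⊓ Iv O _ (Bq M N) ⊓ Eg O _ (Set.range fun a => dg a a) om →
    (∀ (p : ℕ) (u : (ZMod M)ˣ), p.Prime → p ≠ 2 → (u : ZMod M) = p → ∀ v ∈ X,
      Tf O _ 0 p u v = lam p • v) →
    ∃ s : Finset (FT M (RR π)), s.card ≤ b ∧ Submodule.span O (s : Set _) = X := by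
  have hR := P022D.V.root O
  have hU := P022D.V.unr O
  have hV := P022D.V.vs3 O
  have hIr := All.irr O
  have hD := All.descv O
  have hWV := All.wv O
  have hI := All.ih O
  have hG := P022D.V.grp
  have hT := P022D.V.tn
  have h1 := P022D.V.wf1
  have h2 := All.wf2
  refine fun r => ⟨2 ^ r, fun M N l z π hM M3 hN eM hl hp hr hz hπ lam om X hX hL => ?_⟩
  have e : ∀ q ∈ l, M / q = N * (l.erase q).prod := fun q hq => by
    rw [eM, ← List.prod_erase hq, mul_left_comm, Nat.mul_div_cancel_left _ (hp q hq).1.pos]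
  have sp : ∀ q ∈ l, Sp M (M / q) q := fun q hq => by
    refine ⟨(Nat.div_mul_cancel (eM ▸ (List.dvd_prod hq).mul_left N)).symm, ?_, (hp q hq).1, hM⟩
    rw [e q hq, Nat.coprime_comm, (hp q hq).1.coprime_iff_not_dvd, (hp q hq).1.dvd_mul,
      (hp q hq).1.prime.dvd_prod_iff]
    rintro (h | ⟨a, ha, h⟩)
    · exact (hp q hq).2 h
    · obtain ⟨a1, a2⟩ := hl.mem_erase_iff.1 ha
      exact a1 ((Nat.prime_dvd_prime_iff_eq (hp q hq).1 (hp a a2).1).1 h).symm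
  have dv : ∀ q ∈ l, ∀ q' ∈ l, q ≠ q' → q ∣ M / q' := fun q hq q' hq' h => by
    rw [e q' hq']
    exact (List.dvd_prod (hl.mem_erase_iff.2 ⟨h, hq⟩)).mul_left N
  have dN : ∀ q ∈ l, N ∣ M / q := fun q hq => ⟨_, e q hq⟩
  have M1 : 1 < M := by omega
  have cop : Nat.Coprime N l.prod := Nat.coprime_list_prod_right_iff.2 fun q hq =>
    ((hp q hq).1.coprime_iff_not_dvd.2 (hp q hq).2).symm
  have key : ∀ S : List ℕ, S.Nodup → (∀ q ∈ S, q ∈ l) →
      Ng (2 ^ S.length) (Yn M N l.prod z π lam om {q | q ∈ S} {q | q ∈ l ∧ q ∉ S}) := by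
    intro S
    induction S with
    | nil =>
      refine fun _ _ => base hR hU hV hIr hT hM M1 eM cop hz hπ fun p p1 p2 => ?_
      obtain ⟨a, ha, h⟩ := p1.prime.dvd_prod_iff.1 p2
      obtain rfl := (Nat.prime_dvd_prime_iff_eq p1 (hp a ha).1).1 h
      exact ⟨⟨ha, List.not_mem_nil⟩, sp p ha⟩
    | cons q S ih =>
      intro hS hSl
      obtain ⟨n1, n2⟩ := List.nodup_cons.1 hS
      have hq := hSl q List.mem_cons_self
      have hSl' : ∀ q ∈ S, q ∈ l := fun q' h => hSl q' (List.mem_cons_of_mem _ h)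
      have h0 : 0 < M / q := Nat.pos_of_mul_pos_right ((sp q hq).eq ▸ hM.pos)
      rw [List.length_cons, pow_succ, mul_two]
      refine (step (z := z) (lam := lam) (om := om) (S := {q | q ∈ S})
        (T := {q' | q' ∈ l ∧ q' ∉ q :: S}) hR hV hD hWV hI hG h1 h2 (sp q hq)
        (hN q hq) (dN q hq) (List.dvd_prod hq)
        (fun q' h => dv q hq q' (hSl' q' h) fun e => n1 (e ▸ h))
        (fun q' h => dv q hq q' h.1 fun e => h.2 (e ▸ List.mem_cons_self)) hπ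
        ((ih n2 hSl').mono ?_)).mono ?_
      · rintro v ⟨hv, h⟩
        refine ⟨hv.vb, hv.wh, hv.ce, hv.he, hv.tor, hv.iv, fun q' h' => ?_⟩
        by_cases e : q' = q
        · subst e; exact h
        · exact hv.nu q' ⟨h'.1, fun h'' => (List.mem_cons.1 h'').elim e h'.2⟩
      · intro v hv
        exact ⟨⟨hv.vb, hv.wh, hv.ce, hv.he, hv.tor,
          fun q' h => hv.iv q' (List.mem_cons_of_mem _ h), hv.nu⟩, hv.iv q List.mem_cons_self⟩
  rw [← hr]
  refine key l hl (fun _ h => h) X fun v hv => ?_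
  obtain ⟨⟨⟨x1, x2⟩, x3⟩, x4⟩ := hX hv
  refine ⟨x1, fun x => ?_, fun a => x4 _ ⟨a, rfl⟩, fun p u p1 p2 p3 => hL p u p1 p2 p3 v hv,
    fun a d ha hd => Gn.mem_Iv.1 x3 _ ⟨dg_mem ha hd, by simp [dg_coe]⟩, fun q hq => Gn.mem_Iv.2 ?_,
    fun q hq => (hq.2 hq.1).elim⟩
  · rw [← Nat.cast_mul]; exact x2 _
  · rintro _ ⟨x, rfl⟩
    exact Gn.mem_Iv.1 x3 _ ⟨un_mem' (dN q hq) x, by simp [un_coe]⟩

end

open IsLocalRing Vale.Agent.P022 Vale.Agent.P022D.V Vale.Agent.P022E.V Vale.Agent.P022.H853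
  Vale.Agent.P022D.Gt Vale.Agent.P022E.Gt Vale.Agent.P022E.Fm.Sb
open Vale.Agent.P027M.M (ze)

variable {O : Type} [CommRing O] [Co O]

/-- the bound for the divisible carrier -/
theorem gen1' (r : ℕ) : ∃ b : ℕ, ∀ (M N i : ℕ) (l : List ℕ)
    (z π : O), Odd M → 3 ≤ M → (∀ q ∈ l, 3 ≤ M / q) → M = N * l.prod → l.Nodup →
    (∀ q ∈ l, q.Prime ∧ ¬ q ∣ N) →
    l.length = r → Co.j z = ze N 1 → Unif π → ∀ (lam : ℕ → O) (Y : Submodule O (FT M (RD O))),
    Y ≤ XD O M i ⊓ Wh O _ M z ⊓ Iv O _ (Bq M N) → (∀ v ∈ Y, π • v = 0) →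
    (∀ a, ∀ v ∈ Y, rt O _ (dg a a) v = v) →
    (∀ (p : ℕ) (u : (ZMod M)ˣ), p.Prime → p ≠ 2 → (u : ZMod M) = p → ∀ v ∈ Y,
      T2 O _ i p u v = lam p • v) →
    ∃ s : Finset (FT M (RD O)), s.card ≤ b ∧ Submodule.span O (s : Set _) = Y := by
  classical
  obtain ⟨b, hb⟩ := genS O r
  refine ⟨b, fun M N i l z π ho M3 h3 eM nd pr len hz hπ lam Y le h0 sc hT => ?_⟩
  have hD := All.div O
  have hP := P022D.V.par O
  obtain ⟨d1, d2, -, d4, -⟩ := hD M ho M3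
  have inj := d1 π hπ.ne
  obtain ⟨c, hc⟩ : π ∣ 2 := hπ.dvd 2 fun h => by
    obtain ⟨u, hu⟩ := h.exists_right_inv
    have e := congrArg (Co.j : O →+* ℂ) hu
    rw [map_mul, map_one, map_ofNat] at e
    exact Co.two (O := O) (eq_inv_of_mul_eq_one_right e ▸ Co.mem u)
  have t2 : ∀ v ∈ Y, 2 • v = 0 := fun v hv => by
    rw [← Nat.cast_smul_eq_nsmul O, Nat.cast_ofNat, hc, mul_comm, mul_smul, h0 v hv, smul_zero]
  have e1 : ∀ v ∈ Y, ep O _ M (i + 1) v = v := fun v hv => ep_eq (t2 v hv) (sc _ v hv) _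
  have sur : ∀ v ∈ Y, ∃ w ∈ Vb M π, ml O M (dv π) w = v := fun v hv => by
    have m := ((d2 (i + 1) π hπ.ne).2 v).1 ⟨(d4 i v (le hv).1.1).2.2.2 (e1 v hv), h0 v hv⟩
    rwa [(hP M ho M3).2 (i + 1) π ⟨c, hc⟩] at m
  obtain ⟨s, h1, h2⟩ := hb M N l z π ho M3 h3 eM nd pr len hz hπ lam (fun _ => 1)
    (Y.comap (ml O M (dv π))) (fun w hw => by
      have hw' : ml O M (dv π) w ∈ Y := hw
      obtain ⟨w', a, e⟩ := sur _ hw'
      refine ⟨⟨⟨inj e ▸ a, fun x => inj ?_⟩, mem_Iv.2 fun h hh => inj ?_⟩, ?_⟩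
      · rw [map_smul, ml_rt]
        exact (le hw').1.2 x
      · rw [ml_rt]
        exact mem_Iv.1 (le hw').2 h hh
      · rintro _ ⟨a, rfl⟩
        refine inj ?_
        rw [one_smul, ml_rt]
        exact sc a _ hw')
    (fun p u hp p2 hu w hw => inj (by
      have hw' : ml O M (dv π) w ∈ Y := hw
      have o := hp.odd_of_ne_two p2
      rw [ml_Tf, map_smul, ← hT p u hp p2 hu _ hw', T2_apply, Tf_apply, pw_apply, e1 _ hw',
        sub_self, smul_zero, add_zero, pow_zero, one_smul, odd_sm _ o.pow]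
      rw [← map_nsmul, t2 _ hw', map_zero]))
  refine ⟨s.image (ml O M (dv π)), Finset.card_image_le.trans h1, ?_⟩
  rw [Finset.coe_image, ← Submodule.map_span, h2]
  exact Submodule.map_comap_eq_of_le fun v hv => (sur v hv).elim fun w h => ⟨w, h.2⟩

end Vale.Agent.P022S.Gen1
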