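import Vale.Agent.P022E.Fm.Sb
import Vale.Agent.P022S.Fp.Base
import Vale.Agent.P022S.Gt.All

/-!
# P022D, forms side: the socles are bounded
-/

set_option linter.all false

open Matrix IsLocalRing

noncomputable section

namespace Vale.Agent.P022E.Fm.Sb

open Vale.Agent.P022 Vale.Agent.P022D.V Vale.Agent.P022E.V Vale.Agent.P022D.Gt Vale.Agent.P022E.Gt
open Vale.Agent.P027M.M (ze)
open Vale.Agent.P027M.S (mx)
open Vale.Agent.P022D.As (Tg cc tt dd yy mT ev0 Sb2)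

variable {O F : Type} [CommRing O] [IsLocalRing O] [Co O] [Field F] {U : Su O F}

section lev

variable {r n M : ℕ} {q : Fin r → ℕ} {b : Fin r → (ZMod M)ˣ} {τ : Fin r → GQ}

theorem prCGs (hU : U.OkS) (l : U.L.C) : l.1.Prime ∧ l.1 ≠ 2 :=
  hU.ok.pr _ (Finset.mem_union_right _ l.2)

theorem NC_eqGs (hU : U.OkS) : U.NC = ∏ l : U.L.C, l.1 := by
  rw [hU.NC, Finset.prod_coe_sort U.L.C fun l => l]

theorem mem_of_dvdGs (hU : U.OkS) {p : ℕ} (hp : p.Prime) (h : p ∣ U.N) : p ∈ U.L.W ∪ U.L.C := by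
  rcases (Nat.Prime.dvd_mul hp).1 h with h | h
  · exact Finset.mem_union_left _ ((hU.NW p hp).1 h)
  · rw [NC_eqGs hU] at h
    obtain ⟨l, -, hl⟩ := (hp.prime.dvd_finset_prod_iff _).1 h
    rw [(Nat.prime_dvd_prime_iff_eq hp (prCGs hU l).1).1 hl]
    exact Finset.mem_union_right _ l.2

theorem aux_ofGs (hU : U.OkS) (lv : Lv U r n M q b τ) : Aux M U.N n q b := by
  have hT : ∀ p ∈ U.L.W ∪ U.L.C, p ∈ U.S.T := fun p hp => by
    rw [hU.ok.hT]
    exact Finset.mem_insert_of_mem (Finset.mem_insert_of_mem hp)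
  refine ⟨?_, lv.eq, lv.inj, fun j => ⟨(lv.pr j).1, fun h =>
    (lv.pr j).2 (hT _ (mem_of_dvdGs hU (lv.pr j).1 h))⟩, lv.b1, lv.gen⟩
  rw [← Nat.not_even_iff_odd, even_iff_two_dvd, lv.eq]
  intro h
  rcases (Nat.Prime.dvd_mul Nat.prime_two).1 h with h | h
  · exact (hU.ok.pr _ (mem_of_dvdGs hU Nat.prime_two h)).2 rfl
  · obtain ⟨j, -, hj⟩ := (Nat.prime_two.prime.dvd_finset_prod_iff _).1 h
    refine (lv.pr j).2 ?_
    rw [← (Nat.prime_dvd_prime_iff_eq Nat.prime_two (lv.pr j).1).1 hj, hU.ok.hT]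
    exact Finset.mem_insert_of_mem (Finset.mem_insert_self _ _)

theorem NS_CSGs (hU : U.OkS) (S : Finset U.L.C) : U.N = NS U S * CS U S := by
  classical
  rw [Su.N, NS, CS, NC_eqGs hU, mul_assoc, Finset.prod_mul_prod_compl]

theorem cop_NSGs (hU : U.OkS) (S : Finset U.L.C) : Nat.Coprime (NS U S) (CS U S) := by
  classical
  refine Nat.Coprime.prod_right fun l hl => Nat.Coprime.symm ?_
  refine (prCGs hU l).1.coprime_iff_not_dvd.2 fun h => ?_
  rcases (Nat.Prime.dvd_mul (prCGs hU l).1).1 h with h | h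
  · exact Finset.disjoint_left.1 hU.ok.dj ((hU.NW _ (prCGs hU l).1).1 h) l.2
  · obtain ⟨l', h1, h2⟩ := ((prCGs hU l).1.prime.dvd_finset_prod_iff _).1 h
    rw [← Subtype.ext ((Nat.prime_dvd_prime_iff_eq (prCGs hU l).1 (prCGs hU l').1).1 h2)] at h1
    exact Finset.mem_compl.1 hl h1

theorem spCGs (hU : U.OkS) (A : Aux M U.N n q b) (l : U.L.C) :
    Sp M (M / l.1) l.1 ∧ M / l.1 = U.N / l.1 * ∏ j, q j ∧ M / U.NC = U.NW * ∏ j, q j ∧
      M / U.NC ∣ M / l.1 := by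
  classical
  have p := (prCGs hU l).1
  have e : U.N = NS U {l}ᶜ * l.1 := by
    rw [NS_CSGs hU {l}ᶜ, CS, compl_compl, Finset.prod_singleton]
  have c := cop_NSGs hU {l}ᶜ
  rw [CS, compl_compl, Finset.prod_singleton] at c
  have e1 : U.N / l.1 = NS U {l}ᶜ := by rw [e, Nat.mul_div_cancel _ p.pos]
  have e2 : M / l.1 = NS U {l}ᶜ * ∏ j, q j := by
    rw [A.eq, e, mul_right_comm, Nat.mul_div_cancel _ p.pos]
  have e3 : M / U.NC = U.NW * ∏ j, q j := by
    have h0 : 0 < U.NC := Nat.pos_of_ne_zero fun h => A.odd.pos.ne' (by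
      rw [A.eq, Su.N, h, mul_zero, zero_mul])
    rw [A.eq, Su.N, mul_right_comm, Nat.mul_div_cancel _ h0]
  refine ⟨⟨?_, ?_, p, A.odd⟩, by rw [e1, e2], e3, ?_⟩
  · rw [e2, mul_right_comm, ← e, A.eq]
  · rw [e2]
    refine Nat.Coprime.mul_left c (Nat.Coprime.prod_left fun j _ => ?_)
    exact (A.pr j).1.coprime_iff_not_dvd.2 fun h => (A.pr j).2 (h.trans ⟨_, by rw [e, mul_comm]⟩)
  · rw [e2, e3]
    exact Nat.mul_dvd_mul_right (dvd_mul_right _ _) _

variable [hC : ∀ l : U.L.C, Fact l.1.Prime] [CharP F 2] {X : Dt U M n}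
  {Cc : ∀ l : U.L.C, P022D.Rep.Ch (ZMod l.1) F}

/-- invariance outside `S` -/
theorem inv_XSGs (hU : U.OkS) (A : Aux M U.N n q b) (hX : X.Ok) {S : Finset U.L.C} {w : U.Wb M n}
    (hw : w ∈ X.E.Y (P022D.Rep.XS U.bn Cc S).v) :
    tu w ∈ Iv O (RD O) (Kq M (NS U S * ∏ j, q j)) := by
  classical
  refine mem_Iv.2 fun h hh => ?_
  have dv : ∀ l : U.L.C, l.1 ∣ M := fun l => Dvd.intro_left _ (spCGs hU A l).1.eq.symm
  have e : M / U.NC ∣ NS U S * ∏ j, q j := by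
    have h0 : 0 < U.NC := Nat.pos_of_ne_zero fun h => A.odd.pos.ne' (by
      rw [A.eq, Su.N, h, mul_zero, zero_mul])
    rw [A.eq, Su.N, mul_right_comm, Nat.mul_div_cancel _ h0]
    exact Nat.mul_dvd_mul_right (dvd_mul_right _ _) _
  let γ : ∀ l, U.Gam l := fun l => QuotientGroup.mk (pr (dv l) h)
  have a := hX.act h (kq_mono e hh) γ (fun _ _ => rfl) w
  let H : Subgroup (∀ l, U.Gam l) :=
    { carrier := {g | X.E.ρ g w = w}
      one_mem' := by change X.E.ρ 1 w = w; rw [map_one]; rfl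
      mul_mem' := fun {g g'} a b => by
        change X.E.ρ (g * g') w = w
        rw [map_mul, Module.End.mul_apply, b, a]
      inv_mem' := fun {g} a => by
        change X.E.ρ g⁻¹ w = w
        conv_lhs => rw [← a]
        rw [← Module.End.mul_apply, ← map_mul, inv_mul_cancel, map_one]
        rfl }
  have m : γ ∈ H := Subgroup.pi_mem_of_mulSingle_mem γ fun l => by
    by_cases hl : l ∈ S
    · have : γ l = 1 := by
        change QuotientGroup.mk (pr (dv l) h) = 1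
        rw [pr_kq _ (kq_mono ((dvd_NS hl).mul_right _) hh)]
        rfl
      rw [this, Pi.mulSingle_one]
      exact H.one_mem
    · exact ((X.E.mem_XS S w).1 hw).2 l hl _
  rw [show X.E.ρ γ w = w from m] at a
  exact a.symm

/-- the action of the unipotent group at `l` -/
theorem un_actGs (hU : U.OkS) (A : Aux M U.N n q b) (hX : X.Ok) (l : U.L.C) (y : ℕ) (w : U.Wb M n) :
    tu (X.E.ρ (Pi.mulSingle l ((U.bn l).u ((M / l.1 * y : ℕ) : ZMod l.1))) w) =
      rt O _ (un ((M / l.1 * y : ℕ) : ZMod M)) (tu w) := by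
  classical
  refine hX.act _ (kq_mono (spCGs hU A l).2.2.2 (un_kq _ y)) _ (fun l' hl' => ?_) w
  by_cases e : l' = l
  · subst e
    rw [Pi.mulSingle_eq_same, pr_un, map_natCast]
    rfl
  · rw [Pi.mulSingle_eq_of_ne e, pr_kq _ (kq_mono (Cyc.dvd_div (spCGs hU A l).1 hl'
      ((Nat.coprime_primes (prCGs hU l').1 (prCGs hU l).1).2 fun h => e (Subtype.ext h)))
      (un_kq _ y))]
    rfl

/-- the Whittaker condition at `W` and `S` -/
theorem wh_XSGs (hU : U.OkS) (A : Aux M U.N n q b) (hX : X.Ok) (hc : U.IsCh Cc)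
    {S : Finset U.L.C} {w : U.Wb M n} (hw : w ∈ X.E.Y (P022D.Rep.XS U.bn Cc S).v) {c : ℕ}
    (he : CS U S * c ≡ 1 [MOD NS U S]) : tu w ∈ Wh O (RD O) M ((U.z ^ CS U S) ^ c) := by
  classical
  haveI : NeZero M := ⟨A.odd.pos.ne'⟩
  have N0 : U.N ≠ 0 := fun h => A.odd.pos.ne' (by rw [A.eq, h, zero_mul])
  have zN := z_pow N0 hU.z
  have zM : U.z ^ M = 1 := by rw [A.eq, pow_mul, zN, one_pow]
  have md : ∀ {x y : ℕ}, x ≡ y [MOD NS U S] → x ≡ y [MOD CS U S] → U.z ^ x = U.z ^ y :=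
    fun h1 h2 => pow_mod zN (by
      rw [NS_CSGs hU S]
      exact (Nat.modEq_and_modEq_iff_modEq_mul (cop_NSGs hU S)).1 ⟨h1, h2⟩)
  have m1 : ∀ x : ℕ, CS U S ∣ x → U.z ^ (CS U S * c * x) = U.z ^ x := fun x hx =>
    md (by simpa using he.mul_right x)
      ((Nat.modEq_zero_iff_dvd.2 (hx.mul_left _)).trans (Nat.modEq_zero_iff_dvd.2 hx).symm)
  let P : ℕ → Prop := fun x => U.z ^ (CS U S * c * x) • rt O _ (un (x : ZMod M)) (tu w) = tu w
  have Pm : ∀ x y : ℕ, (x : ZMod M) = y → P x → P y := fun x y h a => by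
    unfold P at a ⊢
    rw [← h, ← pow_mod zM (((ZMod.natCast_eq_natCast_iff _ _ _).1 h).mul_left _), a]
  have Pa : ∀ x y, P x → P y → P (x + y) := fun x y a d => by
    unfold P at a d ⊢
    rw [Nat.cast_add, un_add, mul_add, pow_add, mul_smul, ← rt_rt, ← map_smul, d, a]
  have P1 : ∀ y, P (U.NC * y) := fun y => by
    unfold P
    rw [m1 _ (Dvd.dvd.mul_right (by
      rw [NC_eqGs hU, CS]
      exact Finset.prod_dvd_prod_of_subset _ _ _ (Finset.subset_univ _)) _)]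
    have e := (Submodule.mem_iInf _).1 (tu_mem w).1.1.2 y
    rw [LinearMap.mem_ker, LinearMap.sub_apply, sub_eq_zero] at e
    exact e
  have P2 : ∀ (l : U.L.C) y, P (M / l.1 * y) := fun l y => by
    unfold P
    have p := (prCGs hU l).1
    rw [← un_actGs hU A hX l y w]
    by_cases hl : l ∈ S
    · obtain ⟨k, hk⟩ := dvd_NS hl
      have e : U.N / l.1 = k * CS U S := by
        rw [NS_CSGs hU S, hk, mul_assoc, Nat.mul_div_cancel_left _ p.pos]
      rw [((X.E.mem_XS S w).1 hw).1 l hl, m1 _ (by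
        rw [(spCGs hU A l).2.1, e]
        exact ((dvd_mul_left _ _).mul_right _).mul_right _)]
      have e1 := hc l ((∏ j, q j) * y)
      rw [← mul_assoc, ← (spCGs hU A l).2.1, ← map_pow, mul_comm] at e1
      have e2 := hX.sc (U.z ^ (M / l.1 * y))
        (X.E.sc ((Cc l).ψ ((M / l.1 * y : ℕ) : ZMod l.1)) w)
      rw [← Module.End.mul_apply, ← map_mul, e1, map_one] at e2
      exact (congrArg tu e2).symm
    · obtain ⟨k, hk⟩ := dvd_CS hl
      have e : U.N / l.1 = NS U S * k := by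
        rw [NS_CSGs hU S, hk, mul_left_comm, Nat.mul_div_cancel_left _ p.pos]
      rw [((X.E.mem_XS S w).1 hw).2 l hl, md (y := 0) (Nat.modEq_zero_iff_dvd.2 ?_)
        (Nat.modEq_zero_iff_dvd.2 ((dvd_mul_right _ _).mul_right _)), pow_zero, one_smul]
      rw [(spCGs hU A l).2.1, e]
      exact (((dvd_mul_right _ _).mul_right _).mul_right _).mul_left _
  have key : ∀ T : Finset U.L.C, (∀ y, P ((∏ l ∈ T, l.1) * y)) → ∀ y, P y := fun T => by
    induction T using Finset.induction_on with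
    | empty => simp
    | insert l T hl ih =>
      intro h
      refine ih fun y => ?_
      obtain ⟨e, f, D⟩ := GrpP.dat (spCGs hU A l).1
      obtain ⟨u, hu⟩ := D.eM
      obtain ⟨v, hv⟩ := D.fq
      refine Pm _ _ ?_ (Pa _ _ (h (v.val * y)) (P2 l (u.val * ((∏ l ∈ T, l.1) * y))))
      rw [Finset.prod_insert hl]
      have ad := D.add
      simp only [Nat.cast_add, Nat.cast_mul, ZMod.natCast_zmod_val]
      linear_combination (((∏ l ∈ T, l.1 : ℕ) : ZMod M) * y) * (ad - hu - hv)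
  intro x
  rw [← pow_mul, ← pow_mul, ← mul_assoc]
  exact key Finset.univ (by rw [← NC_eqGs hU]; exact P1) x

end lev

variable [hC : ∀ l : U.L.C, Fact l.1.Prime] [CharP F 2] [Finite F]

/-- **SB**: the socles are spanned by a number of elements which only depends on `r` -/
theorem sbGs (hU : U.OkS) (r : ℕ) :
    ∃ b : ℕ, ∀ (n M : ℕ) (q : Fin r → ℕ) (b' : Fin r → (ZMod M)ˣ) (τ : Fin r → GQ),
    Lv U r n M q b' τ → ∀ X : Dt U M n, X.Ok → ∀ u, IsDia b' u → ∀ Cc, U.IsCh Cc →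
    ∀ (a : P022D.Rep.TX U.bn Cc) (K : Submodule (U.B M) (U.GG M)), K ≤ X.Y1 a.v →
      Sb2 (mT U.L.r) b (P022D.Fm.Mt (X.ev u) K) := by
  classical
  obtain ⟨b, hb⟩ := P022S.Gt.genDS (S := U.S) (L := U.L) r
  obtain ⟨b₁, hb₁⟩ := P022S.Gt.genDS (S := U.S) (L := U.L) (U.L.C.toList.length + r)
  refine ⟨b + b₁, fun n M q b' τ lv X hX u hu Cc hc a K hK => ?_⟩
  have A := aux_ofGs hU lv
  haveI : NeZero M := ⟨A.odd.pos.ne'⟩
  obtain ⟨S, hS⟩ := X.E.le_XS a
  let ι : P022D.Fm.Mt (X.ev u) K →+ P022D.Fm.AM O M :=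
    ((U.GG M).subtype.toAddMonoidHom).comp K.subtype.toAddMonoidHom
  have inj : Function.Injective ι := Subtype.val_injective.comp Subtype.val_injective
  have sm : ∀ (p : Tg O) (w : P022D.Fm.Mt (X.ev u) K),
      ι (p • w) = ((X.ev u p • ((show K from w) : U.GG M) : U.GG M) : P022D.Fm.AM O M) := fun _ _ => rfl
  have ic : ∀ (o : O) w, ι (cc o • w) = o • ι w := fun o w => by rw [sm, ev_cc]; rfl
  let P : P022D.Fm.Mt (X.ev u) K → Prop := fun w => ∀ p ∈ mT U.L.r, p • w = 0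
  let Xs : Submodule O (P022D.Fm.AM O M) :=
    { carrier := {v | ∃ w, P w ∧ ι w = v}
      zero_mem' := ⟨0, fun _ _ => smul_zero _, map_zero _⟩
      add_mem' := by
        rintro _ _ ⟨w, a, rfl⟩ ⟨w', a', rfl⟩
        exact ⟨w + w', fun p hp => by rw [smul_add, a p hp, a' p hp, add_zero], map_add _ _ _⟩
      smul_mem' := by
        rintro o _ ⟨w, a, rfl⟩
        exact ⟨cc o • w, fun p hp => by rw [smul_comm, a p hp, smul_zero], ic o w⟩ }
  have ex : ∀ w : P022D.Fm.Mt (X.ev u) K, ∃ w' ∈ X.E.Y (P022D.Rep.XS U.bn Cc S).v, tu w' = ι w := fun w => by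
    obtain ⟨w', h1, h2⟩ := hK (show K from w).2
    exact ⟨w', hS h1, congrArg Subtype.val h2⟩
  have h0 : ∀ w, U.ϖ • ι w = 0 := fun w => by
    obtain ⟨w', -, e⟩ := ex w
    exact e ▸ (tu_mem w').2
  have ft : ∀ w, P w → ∀ g, ((X.t g • ((show K from w) : U.GG M) : U.GG M) : P022D.Fm.AM O M) =
      (U.L.r g).trace • ι w := fun w hw g => by
    have e := hw (tt g - cc (U.L.r g).trace) (by simp [mT, ev0, tt, cc])
    rw [sub_smul, sub_eq_zero] at e
    rw [← ic, ← e, sm, ev_tt]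
  have fd : ∀ w, P w → ∀ g, (((X.d g : U.B M) • ((show K from w) : U.GG M) : U.GG M) : P022D.Fm.AM O M) =
      ι w := fun w hw g => by
    have e := hw (dd g - cc (U.L.r g).det) (by simp [mT, ev0, dd, cc])
    rw [sub_smul, sub_eq_zero] at e
    rw [← ev_dd u, ← sm, e, ic, sm_eqS hU.ok hU.uni (b := 1) (by rw [hU.ok.dt1, map_one]) (h0 w),
      one_smul]
  have fy : ∀ w, P w → ∀ j, rt O _ (dg 1 (b' j)) (ι w) = ι w := fun w hw j => by
    have e := congrArg ι (hw (yy j) (by simp [mT, ev0, yy]))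
    rw [sm, ev_yy, sub_smul, one_smul, map_zero, Submodule.coe_sub, (hu j).1, sub_eq_zero] at e
    exact e
  suffices h : ∃ s : Finset (P022D.Fm.AM O M), s.card ≤ b + b₁ ∧ Submodule.span O (s : Set _) = Xs by
    obtain ⟨s, s1, s2⟩ := h
    exact sb2_of ι inj cc ic P (fun _ _ => smul_zero _) s s1
      (fun x hx => show x ∈ Xs from s2 ▸ Submodule.subset_span hx)
      (fun w hw => s2.symm ▸ (⟨w, hw, rfl⟩ : ι w ∈ Xs))
  have eN := NS_CSGs hU S
  have dN : NS U S ∣ U.N := ⟨_, eN⟩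
  have oN : Odd (NS U S) := A.odd.of_dvd_nat (dN.trans ⟨_, A.eq⟩)
  have tor : ∀ x y : (ZMod M)ˣ, Cg M U.N x 1 → Cg M U.N y 1 → ∀ v ∈ Xs, rt O _ (dg x y) v = v := by
    rintro x y hx hy _ ⟨w, hw, rfl⟩
    obtain ⟨w', -, e⟩ := ex w
    have tq : ∀ x y : (ZMod M)ˣ, Cg M U.N x 1 → Cg M U.N y 1 →
        dg (x ^ 2 ^ n) (y ^ 2 ^ n) ∈ stH O (ι w) := fun x y hx hy => by
      rw [← e]
      exact mem_Iv.1 (tu_mem w').1.2 _ ⟨x, y, hx, hy, rfl⟩
    have b2 : ∀ j, dg 1 (b' j) ∈ stH O (ι w) := fy w hw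
    have b1 : ∀ j, dg (b' j) 1 ∈ stH O (ι w) := fun j => by
      have e1 : dg (b' j) (b' j) ∈ stH O (ι w) :=
        (hX.op.dI (q j) (lv.pr j).1 (fun h => by
          have := (A.sp j).1.odd.of_dvd_nat (Dvd.intro_left _ (A.sp j).1.eq.symm)
          rw [h] at this
          exact absurd this (by decide)) (τ j) (lv.ine j) (b' j) (lv.cyc j) _).symm.trans
          (fd w hw _)
      have e2 := (stH O (ι w)).mul_mem e1 ((stH O (ι w)).inv_mem (b2 j))
      rwa [show dg (b' j) (b' j) = dg (b' j) 1 * dg 1 (b' j) by rw [dg_mul, mul_one, one_mul],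
        mul_inv_cancel_right] at e2
    have k1 := A.mem ((stH O (ι w)).comap (dgl M)) b1 (fun j c h => by
      have := tq c 1 (Cyc.Cg.of_dvd h (A.sp j).2) Cyc.cg_one
      rwa [one_pow] at this) hx
    have k2 := A.mem ((stH O (ι w)).comap (dgr M)) b2 (fun j c h => by
      have := tq 1 c Cyc.cg_one (Cyc.Cg.of_dvd h (A.sp j).2)
      rwa [one_pow] at this) hy
    rw [show dg x y = dg x 1 * dg 1 y by rw [dg_mul, mul_one, one_mul]]
    exact (stH O (ι w)).mul_mem k1 k2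
  have hek : ∀ (p : ℕ) φ, p.Prime → p ∉ (∅ : Finset ℕ) → ¬ p ∣ 2 * M → IsFrob p φ → ∀ v ∈ Xs,
      T2 O _ U.i p (cl M p) v = (U.L.r φ).trace • v ∧ S2 O _ U.i p (cl M p) v = v := by
    rintro p φ hp - hM hφ _ ⟨w, hw, rfl⟩
    have e : P022D.Fm.uP (⟨p, hp, hM⟩ : PA M) = cl M p :=
      Units.ext ((ZMod.coe_unitOfCoprime _ _).trans (nd2 hp hM).2.symm)
    rw [← e]
    exact ⟨(hX.op.frT ⟨p, hp, hM⟩ φ hφ _).symm.trans (ft w hw φ),
      (hX.op.frS ⟨p, hp, hM⟩ φ hφ _).symm.trans (fd w hw φ)⟩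
  have x0 : ∀ v ∈ Xs, U.ϖ • v = 0 := by
    rintro _ ⟨w, -, rfl⟩
    exact h0 w
  haveI : NeZero (NS U S) := ⟨oN.pos.ne'⟩
  let c := ((ZMod.unitOfCoprime _ (cop_NSGs hU S).symm)⁻¹ : (ZMod (NS U S))ˣ)
  have he : CS U S * (c : ZMod (NS U S)).val ≡ 1 [MOD NS U S] := by
    rw [← ZMod.natCast_eq_natCast_iff, Nat.cast_mul, ZMod.natCast_zmod_val,
      ← ZMod.coe_unitOfCoprime _ (cop_NSGs hU S).symm, Units.mul_inv, Nat.cast_one]
  have le : Xs ≤ XD O M U.i ⊓ Iv O _ (Kq M (NS U S * ∏ j, q j)) ⊓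
      Wh O _ M ((U.z ^ CS U S) ^ (c : ZMod (NS U S)).val) := by
    rintro _ ⟨w, -, rfl⟩
    obtain ⟨w', h1, e⟩ := ex w
    rw [← e]
    exact ⟨⟨(w' : U.GG M).2.1, inv_XSGs hU A hX h1⟩, wh_XSGs hU A hX hc h1 he⟩
  have oQ : Odd (∏ j, q j) := A.odd.of_dvd_nat ⟨U.N, by rw [A.eq, mul_comm]⟩
  by_cases h3 : 3 ≤ NS U S
  · refine (hb M U.N (NS U S) U.i (c : ZMod (NS U S)).val (List.ofFn q) (U.z ^ CS U S) U.ϖ ∅ hU.ok
      hU.uni A.odd A.eq' dN oN.pos ?_ ?_ A.nodup (List.forall_mem_ofFn_iff.2 A.pr) List.length_ofFn ?_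
      (ZMod.val_coe_unit_coprime c) Xs (by rw [List.prod_ofFn]; exact le) x0 tor hek).imp
      fun s k => ⟨k.1.trans (Nat.le_add_right _ _), k.2⟩
    · rw [List.prod_ofFn]
      exact h3.trans (Nat.le_mul_of_pos_right _ oQ.pos)
    · intro p hp
      have d := List.dvd_prod hp
      rw [List.prod_ofFn] at d ⊢
      rw [Nat.mul_div_assoc _ d]
      exact h3.trans (Nat.le_mul_of_pos_right _ (Nat.div_pos (Nat.le_of_dvd oQ.pos d)
        (Nat.pos_of_dvd_of_pos d oQ.pos)))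
    · rw [map_pow, hU.z, eN]
      refine Cyc.ze_pw oN.pos.ne' fun h => A.odd.pos.ne' ?_
      rw [A.eq, eN, h, mul_zero, zero_mul]
  · have e1 : NS U S = 1 := by
      obtain ⟨k, hk⟩ := oN
      omega
    have eC : U.N = CS U S := by rw [eN, e1, one_mul]
    have eM : M = (U.L.C.toList ++ List.ofFn q).prod := by
      rw [List.prod_append, List.prod_ofFn, Finset.prod_toList, A.eq, Su.N, hU.NW1, one_mul, hU.NC]
    have dC : ∀ p ∈ U.L.C, p ∣ U.N := fun p hp => by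
      rw [Su.N, hU.NC]
      exact (Finset.dvd_prod_of_mem _ hp).mul_left _
    have p3 : ∀ p ∈ U.L.C, 3 ≤ p := fun p hp => by
      have a := prCGs hU ⟨p, hp⟩
      have := a.1.two_le
      have := a.2
      dsimp only at *
      omega
    have pr : ∀ p ∈ U.L.C.toList ++ List.ofFn q, p.Prime := fun p hp => by
      rcases List.mem_append.1 hp with h | h
      · exact (prCGs hU ⟨p, Finset.mem_toList.1 h⟩).1
      · obtain ⟨j, rfl⟩ := List.mem_ofFn.1 h
        exact (A.pr j).1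
    have cop : Nat.Coprime U.N (∏ j, q j) := Nat.Coprime.prod_right fun j _ =>
      ((A.pr j).1.coprime_iff_not_dvd.2 (A.pr j).2).symm
    have spl : ∀ a : (ZMod M)ˣ, ∃ a1 a2 : (ZMod M)ˣ, Cg M U.N a1 1 ∧ Cg M (∏ j, q j) a2 1 ∧
        a = a1 * a2 := fun a => by
      obtain ⟨k, k1, k2, k3⟩ := crt cop (Nat.coprime_one_left _)
        ((ZMod.val_coe_unit_coprime a).coprime_dvd_right ⟨U.N, by rw [A.eq, mul_comm]⟩)
      rw [← A.eq] at k1
      refine ⟨ZMod.unitOfCoprime k k1, (ZMod.unitOfCoprime k k1)⁻¹ * a, ?_, ?_,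
        (mul_inv_cancel_left _ _).symm⟩
      · simpa using cg_nat (M := M) k2
      · obtain ⟨t, ht⟩ := cg_nat (M := M) k3.symm
        rw [ZMod.natCast_zmod_val, ← ZMod.coe_unitOfCoprime k k1] at ht
        exact ⟨((ZMod.unitOfCoprime k k1)⁻¹ : (ZMod M)ˣ) * t, by
          rw [Units.val_mul, ht, mul_add, Units.inv_mul]
          ring⟩
    have iv : ∀ v ∈ Xs, v ∈ Iv O (RD O) (Kq M (∏ j, q j)) := fun v hv => by
      have k := (le hv).1.2
      rwa [e1, one_mul] at k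
    refine (hb₁ M 1 1 U.i 1 (U.L.C.toList ++ List.ofFn q) 1 U.ϖ ∅ hU.ok hU.uni A.odd
      (by rw [one_mul]; exact eM) dvd_rfl Nat.one_pos ?_ ?_ ?_
      (fun p hp => ⟨pr p hp, (pr p hp).not_dvd_one⟩) (by rw [List.length_append, List.length_ofFn])
      ?_ (Nat.coprime_one_left _) Xs (fun v hv => ⟨⟨(le hv).1.1, mem_Iv.2 fun g hg =>
        mem_Iv.1 (iv v hv) g (kq_mono ?_ hg)⟩, ?_⟩) x0 (fun x y _ _ v hv => ?_) hek).imp
      fun s k => ⟨k.1.trans (Nat.le_add_left _ _), k.2⟩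
    · obtain ⟨p, hp⟩ := hU.C1
      rw [one_mul, ← eM]
      exact (p3 p hp).trans (Nat.le_of_dvd A.odd.pos ((dC p hp).trans ⟨_, A.eq⟩))
    · intro l hl
      obtain ⟨p, hp, ne⟩ := hU.C2 l
      have d : l ∣ M := eM ▸ List.dvd_prod hl
      rw [one_mul, ← eM]
      refine (p3 p hp).trans (Nat.le_of_dvd (Nat.div_pos (Nat.le_of_dvd A.odd.pos d)
        (pr l hl).pos) ?_)
      refine ((Nat.coprime_primes (prCGs hU ⟨p, hp⟩).1 (pr l hl)).2 ne).dvd_of_dvd_mul_right ?_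
      rw [Nat.div_mul_cancel d]
      exact (dC p hp).trans ⟨_, A.eq⟩
    · refine List.nodup_append.2 ⟨Finset.nodup_toList _, A.nodup, fun a ha b hb e => ?_⟩
      obtain ⟨j, rfl⟩ := List.mem_ofFn.1 hb
      exact (A.pr j).2 (e ▸ dC a (Finset.mem_toList.1 ha))
    · rw [map_one]
      simp [ze]
    · rw [one_mul, ← eM]
      exact ⟨U.N, by rw [A.eq, mul_comm]⟩
    · have k := (le hv).2
      rw [← eC, z_pow (fun h => A.odd.pos.ne' (by rw [A.eq, h, zero_mul])) hU.z, one_pow] at k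
      rwa [one_pow]
    · obtain ⟨x1, x2, a1, a2, rfl⟩ := spl x
      obtain ⟨y1, y2, b1, b2, rfl⟩ := spl y
      rw [← dg_mul, ← rt_rt, mem_Iv.1 (iv v hv) _ (P022D.V.Gn.dg_mem a2 b2), tor x1 y1 a1 b1 v hv]

end Vale.Agent.P022E.Fm.Sb

namespace Vale.Agent.P022E.Fm

open Vale.Agent.P022D.V Vale.Agent.P022E.V Vale.Agent.P022D.As Vale.Agent.P022E.As

variable {O F : Type} [CommRing O] [IsLocalRing O] [Co O] [Field F] [CharP F 2] {U : Su O F}
  [hC : ∀ l : U.L.C, Fact l.1.Prime] {Cc : ∀ l : U.L.C, P022D.Rep.Ch (ZMod l.1) F}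

/-- row SBR -/
theorem sbrGs [Finite F] (hU : U.OkS) (hc : U.IsCh Cc) : SBR U Cc := fun r => by
  obtain ⟨b, hb⟩ := Sb.sbGs hU r
  exact ⟨b, fun n q P i => hb n P.M q P.b P.τ P.lv P.X P.ok P.u P.dia Cc hc i _ fun _ h => h.1⟩

end Vale.Agent.P022E.Fm
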