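import Vale.Agent.P022S.Fp.Base
import Vale.Agent.P022S.Gt.Gop
import Vale.Agent.P022S.Gt.New
import Vale.Agent.P022S.G.Gal

/-!
P022S: the closed rows of the Galois operators.
-/

set_option linter.all false

namespace Vale.Agent.P022S

open Vale.Agent.P022D.V

theorem gtS (O : Type) [CommRing O] [Co O] : Gt.GT O := Gt.gtC O Bex.gal2s

theorem newdS (O : Type) [CommRing O] [Co O] : Gt.NEWD O := Gt.newd O Bex.gal2s Bex.i2ns

end Vale.Agent.P022S

namespace Vale.Agent.P022E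

theorem Fm.Su.OkS.hy {O F : Type} [CommRing O] [IsLocalRing O] [P022D.V.Co O] [Field F]
    {U : Fm.Su O F} (hU : U.OkS) : U.Hy := ⟨hU.ok.ker, hU.uni, hU.unr, hU.ok.tr0, hU.ok.dt1⟩

theorem Fm.gopCGs {O F : Type} [CommRing O] [IsDomain O] [IsDiscreteValuationRing O] [P022D.V.Co O]
    [Field F] [Finite F] [CharP F 2] {U : Fm.Su O F} (hU : U.OkS) : Fm.GOP U :=
  Fm.gopCS hU.hy P022S.Bex.gal2s

end Vale.Agent.P022E
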