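import Vale.Agent.P022E.Fm.Gmr
import Vale.Agent.P022S.Fp.Base

/-!
# P022D, forms side: the modules of forms are Galois modules
-/

set_option linter.all false

open scoped MatrixGroups

noncomputable section

namespace Vale.Agent.P022E.Fm

open Vale.Agent.P022 Vale.Agent.P022D.V Vale.Agent.P022E.V Vale.Agent.P027M.M
open Vale.Agent.P022D.As (Tg cc tt dd yy)
open Vale.Agent.P022E.As (Gm Gw)

namespace Gmr

section abs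

variable {T B G : Type} [CommRing T] [CommRing B] [AddCommGroup G] [Module B G] {φ : T →+* B}
  {Y : Submodule B G}

end abs

variable {O F : Type} [CommRing O] [IsLocalRing O] [Co O] [Field F] [CharP F 2] {U : Su O F}

omit [CharP F 2] in
theorem not_dvdGs (hU : U.OkS) {r n M : ℕ} {q : Fin r → ℕ} {b : Fin r → (ZMod M)ˣ} {τ : Fin r → GQ}
    (hL : Lv U r n M q b τ) {l : ℕ} (hp : l.Prime) (hT : l ∉ U.S.T)
    (hQ : l ∉ Finset.univ.image q) : ¬ l ∣ 2 * M := by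
  intro h
  rw [hU.ok.hT] at hT
  simp only [Finset.mem_insert, Finset.mem_union, not_or] at hT
  rw [hL.eq, Su.N, hp.dvd_mul, hp.dvd_mul, hp.dvd_mul, hU.NC] at h
  rcases h with h | (h | h) | h
  · exact hT.2.1 ((Nat.prime_dvd_prime_iff_eq hp Nat.prime_two).1 h)
  · exact hT.2.2.1 ((hU.NW l hp).1 h)
  · obtain ⟨k, hk, h⟩ := hp.prime.exists_mem_finset_dvd h
    rw [(Nat.prime_dvd_prime_iff_eq hp (hU.ok.pr k (Finset.mem_union_right _ hk)).1).1 h] at hT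
    exact hT.2.2.2 hk
  · obtain ⟨i, -, h⟩ := hp.prime.exists_mem_finset_dvd h
    exact hQ (Finset.mem_image.2 ⟨i, Finset.mem_univ _,
      ((Nat.prime_dvd_prime_iff_eq hp (hL.pr i).1).1 h).symm⟩)

omit [CharP F 2] in
theorem two_dvdGs (hU : U.OkS) [CharP F 2] : U.ϖ ∣ 2 := by
  refine hU.uni.dvd 2 ((IsLocalRing.mem_maximalIdeal _).1 ((hU.ok.ker 2).1 ?_))
  rw [map_ofNat]
  exact CharTwo.two_eq_zero

variable [hC : ∀ l : U.L.C, Fact l.1.Prime] {r n : ℕ} {q : Fin r → ℕ} (P : Lq U r n q)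

end Gmr

open Vale.Agent.P022D.Fm.Gmr Vale.Agent.P022E.Fm.Gmr in
/-- **row GMR** -/
theorem gmrCGs {O F : Type} [CommRing O] [IsLocalRing O] [Co O] [Field F] [CharP F 2] {U : Su O F}
    [hC : ∀ l : U.L.C, Fact l.1.Prime] (hU : U.OkS) (hH : HC U) (hL : LQ U) (hS : CLS U)
    (hD : DIA U) : GMR U := by
  intro r n q P Y hY w
  have hm := hL.1 _ _ _ _ _ _ P.lv
  have hc := hH P.M hm.odd (hm.le.trans (Nat.le_of_dvd hm.odd.pos hm.dvd))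
  have ho := P.ok.op
  have hz : P022E.Fm.Gmr.vl w ∈ P.X.Z := hY (P022E.Fm.Gmr.vl_mem w)
  obtain ⟨k, hk⟩ := hc.tor (P022E.Fm.Gmr.vl w)
  obtain ⟨V, -, hV, hI, hu⟩ := ho.opn (P022E.Fm.Gmr.vl w)
  obtain ⟨c1, c2, -⟩ := hS r n q P _ hz
  refine ⟨P022E.Fm.Gmr.fin_tor w (ho.fin _), ⟨k, (P022E.Fm.Gmr.mem_tor w _).2 (by rw [map_pow, P022E.Fm.Gmr.ev_c, hk])⟩, fun g => ?_,
    fun g => ?_, fun i => ?_, P022E.Fm.Gmr.sub_tor w (by rw [P022E.Fm.Gmr.ev_t, ho.tf.one, map_ofNat]),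
    fun g h => P022E.Fm.Gmr.sub_tor w (by rw [P022E.Fm.Gmr.ev_t, P022E.Fm.Gmr.ev_t, ho.tf.comm]),
    fun g h => P022E.Fm.Gmr.sub_tor w (by rw [map_mul, map_add, map_mul, P022E.Fm.Gmr.ev_t, P022E.Fm.Gmr.ev_t, P022E.Fm.Gmr.ev_t, P022E.Fm.Gmr.ev_d, P022E.Fm.Gmr.ev_t,
      ho.tf.mul]),
    P022E.Fm.Gmr.sub_tor w (by rw [P022E.Fm.Gmr.ev_d, map_one, map_one, Units.val_one]),
    fun g h => P022E.Fm.Gmr.sub_tor w (by rw [map_mul, P022E.Fm.Gmr.ev_d, P022E.Fm.Gmr.ev_d, P022E.Fm.Gmr.ev_d, map_mul, Units.val_mul]),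
    ⟨V, hV, fun u h g => P022E.Fm.Gmr.sub_tor w (by rw [P022E.Fm.Gmr.ev_t, P022E.Fm.Gmr.ev_t, (hu u h).2])⟩,
    fun l hp hT hQ Q hQ1 hQ2 s hs g => P022E.Fm.Gmr.sub_tor w (by
      rw [P022E.Fm.Gmr.ev_t, P022E.Fm.Gmr.ev_t, (hu s (hI ⟨l, hp, P022E.Fm.Gmr.not_dvdGs hU P.lv hp hT hQ⟩ s ⟨Q, hQ1, hQ2, hs⟩)).2]),
    fun g hg => P022E.Fm.Gmr.sub_tor w (by rw [P022E.Fm.Gmr.ev_t, P022E.Fm.Gmr.ev_c]; exact c1 g hg),
    fun g hg => P022E.Fm.Gmr.sub_tor w (by rw [P022E.Fm.Gmr.ev_d, P022E.Fm.Gmr.ev_c]; exact c2 g hg),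
    fun i hi => (P022E.Fm.Gmr.mem_tor w _).2 (by rw [P022E.Fm.Gmr.ev_y, dif_neg (not_lt.2 hi), zero_smul])⟩
  · obtain ⟨j, hj, -⟩ := ho.nil g (P022E.Fm.Gmr.vl w)
    exact ⟨j, (P022E.Fm.Gmr.mem_tor w _).2 (by rw [map_pow, map_sub, P022E.Fm.Gmr.ev_t, P022E.Fm.Gmr.ev_c]; exact hj)⟩
  · obtain ⟨j, -, hj⟩ := ho.nil g (P022E.Fm.Gmr.vl w)
    exact ⟨j, (P022E.Fm.Gmr.mem_tor w _).2 (by rw [map_pow, map_sub, P022E.Fm.Gmr.ev_d, P022E.Fm.Gmr.ev_c]; exact hj)⟩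
  · by_cases hi : i < r
    · obtain ⟨c, h2⟩ := P022E.Fm.Gmr.two_dvdGs hU
      have h3 : (2 : U.B P.M) = algebraMap O _ U.ϖ * algebraMap O _ c := by
        rw [← map_mul, ← h2, map_ofNat]
      exact ⟨2 ^ n * k, (P022E.Fm.Gmr.mem_tor w _).2 (by
        rw [map_pow, P022E.Fm.Gmr.ev_y, dif_pos hi]
        exact P022E.Fm.Gmr.nil_u h3 (((hD r n q P).1 _ hz.1).2.2 _) hk)⟩
    · exact ⟨1, (P022E.Fm.Gmr.mem_tor w _).2 (by rw [pow_one, P022E.Fm.Gmr.ev_y, dif_neg hi, zero_smul])⟩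

end Vale.Agent.P022E.Fm
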