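import Vale.Agent.P022E.Fm.Asm
import Vale.Agent.P022S.Fp.Base
import Vale.Agent.P022S.Fp.FmRows

/-!
# P022D, forms side: the rows give the input of the patching argument
-/

set_option linter.all false

open scoped MatrixGroups

noncomputable section

namespace Vale.Agent.P022E.Fm

open Vale.Agent.P022 Vale.Agent.P022D.V Vale.Agent.P022E.V Vale.Agent.P027M.M
open Vale.Agent.P022D.As (Tg Aq Sb2 mT)
open Vale.Agent.P022E.As (HD2 Lv2)

variable {O F : Type} [CommRing O] [IsLocalRing O] [Co O] [Field F] [CharP F 2] {U : Su O F}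

variable [hC : ∀ l : U.L.C, Fact l.1.Prime]

variable {Cc : ∀ l : U.L.C, P022D.Rep.Ch (ZMod l.1) F}

/-- **the forms side from the rows** -/
theorem forms_ofGs (h : ∀ (O F : Type) [CommRing O] [IsDomain O] [IsDiscreteValuationRing O]
    [P022D.Core.Coef O] [Co O] [Field F] [Finite F] [CharP F 2] (U : Su O F)
    [∀ l : U.L.C, Fact l.1.Prime], U.OkS → CH U ∧ ∀ Cc, U.IsCh Cc → Rw U Cc) : FORMSGs := by
  intro O F _ _ _ _ _ _ _ _ U _ hU
  obtain ⟨⟨Cc, hc⟩, h2⟩ := h O F U hU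
  exact ⟨Cc, (h2 Cc hc).asm⟩

end Vale.Agent.P022E.Fm
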