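import Vale.Agent.P022D.V.All0
import Vale.Agent.P022D.V.TrY

/-! The seed of the scalar case: `Δ` modulo `2`. -/

set_option linter.all false

noncomputable section

namespace Vale.Agent.P022S

open Vale.Agent.P022 Vale.Agent.P022D.V Vale.Agent.P022.H790

theorem seedD (O : Type) [CommRing O] [Co O] {M : ℕ} {π : O} (hπ : Unif π) (hM : Odd M)
    (h3 : 3 ≤ M) : ∃ v ∈ Vb M π, v ≠ 0 ∧ (∀ g, rt O _ g v = v) ∧
      ∀ (p : ℕ) (u : (ZMod M)ˣ), p.Prime → p ≠ 2 → (u : ZMod M) = p → Tf O _ 0 p u v = 0 := by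
  haveI : NeZero M := ⟨hM.pos.ne'⟩
  have h2 : π ∣ 2 := hπ.dvd 2 fun h => Tr.two_nonunit (O := O) (by
    simpa [map_ofNat] using h.map (algebraMap O (AA O)))
  have z2 : Int.castAddHom (RR π) (2 : ℕ) = 0 := by
    obtain ⟨c, hc⟩ := h2
    have e : (2 : AA O) = algebraMap O (AA O) π * algebraMap O (AA O) c := by
      rw [← map_mul, ← hc, map_ofNat]
    have : Ideal.Quotient.mk (Ideal.span {algebraMap O (AA O) π}) 2 = 0 :=
      Ideal.Quotient.eq_zero_iff_mem.2 (Ideal.mem_span_singleton.2 ⟨_, e⟩)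
    rw [map_ofNat] at this
    simpa using this
  let ψ : ZMod 2 →+ RR π := ZMod.lift 2 ⟨Int.castAddHom _, z2⟩
  have hψ : ∀ n : ℤ, ψ (n : ZMod 2) = (n : RR π) := fun n => ZMod.lift_coe 2 _ n
  have co : ∀ g n, (red M π (Tr.DT O M) g).coeff n =
      if M ∣ n then ψ (A.D.coeff (n / M)) else 0 := by
    intro g n
    rw [← A.red_DZ, A.red, PowerSeries.coeff_map, eq_intCast, hψ]
    show ((Tr.DT O M g).map (Ideal.Quotient.mk (Ideal.span {algebraMap O (AA O) π}))).coeff n = _
    rw [PowerSeries.coeff_map, Tr.DT, ct, Vo, PowerSeries.coeff_mk, PowerSeries.coeff_map, eq_intCast]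
    split_ifs
    · exact map_intCast _ _
    · exact map_zero _
  refine ⟨red M π (Tr.DT O M), ⟨((vs1 O M 2 π hM le_rfl (h2.trans (dvd_pow_self 2 (by norm_num)))).2
    0 _).2 ⟨12, by decide, _, Tr.D_mem, rfl⟩, fun g n hn => ?_⟩, fun e => ?_, fun g => rfl,
    fun p u hp hp2 hu => ?_⟩
  · rw [co]
    split_ifs with h
    · obtain ⟨k, rfl⟩ := h
      rw [Nat.mul_div_cancel_left _ hM.pos, A.D, PowerSeries.coeff_mk, if_neg, map_zero]
      rintro ⟨a, ha, rfl⟩
      exact Nat.not_even_iff_odd.2 (hM.mul ha.pow) hn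
    · rfl
  · have k := co 1 M
    rw [e, if_pos dvd_rfl, Nat.div_self hM.pos, A.coeff_D_one] at k
    have k1 := hψ 1
    rw [Int.cast_one, Int.cast_one, ← k] at k1
    have k2 : Ideal.Quotient.mk (Ideal.span {algebraMap O (AA O) π}) 1 = 0 := by
      rw [map_one, ← k1]; simp
    exact hπ.nu (Tr.unit_of (isUnit_of_dvd_one
      (Ideal.mem_span_singleton.1 (Ideal.Quotient.eq_zero_iff_mem.1 k2))))
  · have cp : Nat.Coprime p M := (ZMod.isUnit_iff_coprime p M).1 (hu ▸ u.isUnit)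
    funext g
    ext n
    show ((Uo p (red M π (Tr.DT O M) (dg 1 u * g))) +
      (p ^ 0 : ℕ) • Vo p (red M π (Tr.DT O M) (dg u 1 * g))).coeff n = _
    rw [pow_zero, one_smul, map_add, Uo, Vo, PowerSeries.coeff_mk, PowerSeries.coeff_mk, co, co]
    show _ = 0
    by_cases h : M ∣ n
    · obtain ⟨k, rfl⟩ := h
      have k0 := congrArg (fun s => ψ (PowerSeries.coeff k s)) (A.hec_D hp hp2)
      simp only [A.coeff_hec, map_add, map_zero] at k0
      rw [if_pos ((dvd_mul_right M k).mul_left p), mul_left_comm, Nat.mul_div_cancel_left _ hM.pos]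
      refine Eq.trans ?_ k0
      congr 1
      by_cases h1 : p ∣ k
      · obtain ⟨j, rfl⟩ := h1
        rw [if_pos ((dvd_mul_right p j).mul_left M), if_pos (dvd_mul_right p j), mul_left_comm,
          Nat.mul_div_cancel_left _ hp.pos, Nat.mul_div_cancel_left _ hp.pos,
          if_pos (dvd_mul_right M j), Nat.mul_div_cancel_left _ hM.pos]
      · rw [if_neg h1, if_neg fun h => h1 (cp.dvd_of_dvd_mul_left h)]
        exact (map_zero ψ).symm
    · rw [if_neg fun h1 => h (cp.symm.dvd_of_dvd_mul_left h1), zero_add]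
      split_ifs with h1 h4
      · exact absurd (h4.trans (Nat.div_dvd_of_dvd h1)) h
      · rfl
      · rfl

end Vale.Agent.P022S
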