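import Vale.Agent.P022E.Fm.Nonv
import Vale.Agent.P022S.Fp.Base
import Vale.Agent.P022S.Fp.FmRows
import Vale.Agent.P022S.Fp.FmNz
import Vale.Agent.P022S.Fp.Seed
import Vale.Agent.P022S.Fp.FmGopC

/-!
# P022D, forms side: row NONV
-/

set_option linter.all false

noncomputable section

namespace Vale.Agent.P022E.Fm

open Vale.Agent.P022 Vale.Agent.P022D.V Vale.Agent.P022E.V Vale.Agent.P027M.M Vale.Agent.P022D.Rep
  Vale.Agent.P022E.Rep
open Vale.Agent.P027M.S (mx)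

namespace Nz

end Nz

variable {O F : Type} [CommRing O] [IsLocalRing O] [Co O] [Field F] [CharP F 2] {U : Su O F}

theorem Nz.seedGs (hU : U.OkS) : SeedS U := by
  obtain ⟨v, h1, h2, h3, h4⟩ := P022S.seedD O hU.uni (Nz.N_oddGs hU) (Nz.N_threeGs hU)
  have v0 : U.ϖ • v = 0 := by
    funext g
    ext n
    obtain ⟨c, hc⟩ := Ideal.Quotient.mk_surjective ((v g).coeff n)
    rw [Pi.smul_apply, PowerSeries.coeff_smul, ← hc, Algebra.smul_def]
    exact Ideal.Quotient.eq_zero_iff_mem.2 (Ideal.mul_mem_right c _ (Ideal.mem_span_singleton_self _))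
  refine ⟨v, P022D.Fm.mem_Gd.2 ⟨h1, (Nz.mem_Eg_iffGs hU).2 fun y => ?_, fun a => h3 _,
    fun p u a b c => ?_⟩, h2, h3⟩
  · have e : U.N = U.NC := by rw [Su.N, hU.NW1, one_mul]
    rw [h3, pow_mul, ← e, Nz.z_powGs hU, one_pow, one_smul]
  · obtain ⟨k, hc⟩ := (Nz.red_zeroGs hU).1 (hU.ok.tr0 (P022D.Fm.fr p))
    rw [h4 p u a b c, Su.tr, hc, mul_comm, mul_smul, v0, smul_zero]

variable [hC : ∀ l : U.L.C, Fact l.1.Prime] [Finite F]

/-- **an eigenvector of type `J`**, level `N` -/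
theorem nzNGs (hU : U.OkS) {n : ℕ} (X : Dt U U.N n) (hX : X.Ok)
    (Cc : ∀ l : U.L.C, Ch (ZMod l.1) F) (J : Finset U.L.C) :
    ∃ w ∈ X.Y (XJ U.bn Cc J).v, w ≠ 0 ∧
      ∀ g, X.t g • w = U.tr g • w ∧ (X.d g : U.B U.N) • w = U.dt g • w :=
  nz_ofGs (Nz.vr O) (P022D.V.par O) (All.div O) (P022S.gtS O) hU (Nz.seedGs hU) X hX Cc J

/-- **an eigenvector of type `J`** in the base module -/
theorem nzEGs (hU : U.OkS) (Cc : ∀ l : U.L.C, Ch (ZMod l.1) F) (P : L0 U) (J : Finset U.L.C) :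
    ∃ w ∈ P.X.Y (XJ U.bn Cc J).v, w ≠ 0 ∧
      ∀ g, P.X.t g • w = U.tr g • w ∧ (P.X.d g : U.B P.M) • w = U.dt g • w := by
  obtain ⟨M, b, τ, X, u, lv, ok, dia⟩ := P
  have e : M = U.N := by simpa using lv.eq
  subst e
  exact nzNGs hU X ok Cc J

/-- **row NONV** -/
theorem nonvCGs (hU : U.OkS) (Cc : ∀ l : U.L.C, Ch (ZMod l.1) F) : NONVGs U Cc := by
  intro P J e
  obtain ⟨w, hw, w0, -⟩ := nzEGs hU Cc P J
  exact w0 ((Submodule.mem_bot _).1 (e ▸ hw))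

end Vale.Agent.P022E.Fm
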