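import Vale.Agent.P022E.Fm.Nwf
import Vale.Agent.P022S.Fp.Base
import Vale.Agent.P022S.Gt.NwA

/-!
# P022D, forms side: the rows NOINV, URF, NWF
-/

set_option linter.all false

open scoped MatrixGroups

noncomputable section

namespace Vale.Agent.P022E.Fm

open Vale.Agent.P022 Vale.Agent.P022D.V Vale.Agent.P022E.V Vale.Agent.P027M.M
open Vale.Agent.P022D.G (Inert)
open Vale.Agent.P022D.W.Step (kl)
open Vale.Agent.P027M.S (mx)
open Vale.Agent.P022D.As (Tg tt)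

namespace N6

section rep

open Vale.Agent.P022D.Rep Vale.Agent.P022E.Rep

variable {ι : Type} [Fintype ι] [DecidableEq ι] {F : Type} [Field F] [CharP F 2]
  {Γ : ι → Type} [∀ i, Group (Γ i)] [∀ i, Fintype (Γ i)] {T W : Type} [CommRing T]
  [AddCommGroup W] [Module T W] (E : Act F Γ T W) {l : ι} {K : Type} [Field K] [Fintype K]
  (D : BN K (Γ l)) (C : P022D.Rep.Ch K F)

end rep

variable {O F : Type} [CommRing O] [IsLocalRing O] [Co O] [Field F] [CharP F 2] {U : Su O F}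

omit [Co O] [CharP F 2] in
theorem inert_tauGs (hL : U.L.OkS U.S) {l : ℕ} (hl : l ∈ U.L.C) : Inert l (U.L.τ l) :=
  have a := Finset.mem_union_right U.L.W hl
  ⟨U.L.P l, (hL.hP l a).1, (hL.hP l a).2, (hL.tm l a).tau⟩

omit [Co O] [CharP F 2] in
theorem frob_phiGs (hL : U.L.OkS U.S) {l : ℕ} (hl : l ∈ U.L.C) : IsFrob l (U.L.φ l) :=
  have a := Finset.mem_union_right U.L.W hl
  ⟨U.L.P l, (hL.hP l a).1, (hL.hP l a).2, (hL.tm l a).frob⟩

omit [CharP F 2] in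
theorem three_divGs (hU : U.OkS) {M M₀ l : ℕ} (hM : U.N ∣ M) (sp : Sp M M₀ l) (hl : l ∈ U.L.C) :
    3 ≤ M₀ := by
  have key : ∀ p ∈ U.L.W ∪ U.L.C, p ≠ l → p ∣ U.N → 3 ≤ M₀ := fun p hp ne d => by
    obtain ⟨p1, p2⟩ := hU.ok.pr p hp
    have a : p ∣ M₀ * l := sp.eq ▸ d.trans hM
    have b := Nat.le_of_dvd sp.M0pos
      (((Nat.coprime_primes p1 sp.prime).2 ne).dvd_of_dvd_mul_right a)
    have := p1.two_le
    omega
  obtain ⟨p, hp, e⟩ := hU.C2 l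
  refine key p (Finset.mem_union_right _ hp) e (Dvd.dvd.mul_left ?_ _)
  rw [hU.NC]
  exact Finset.dvd_prod_of_mem _ hp

/-- Iwahori vectors of trace zero become invariant -/
theorem coreGs {M M₀ q : ℕ} (sp : Sp M M₀ q) {s : GM M} (hs : IsS M M₀ s) {t : GQ → U.B M}
    {d : GQ →* (U.B M)ˣ} (h : U.Op t d) (hL : U.L.OkS U.S) (hN : P022S.Gt.NEWD O) {φ : GQ}
    (hφ : IsFrob q φ) (tl : ∀ f : U.GG M, (f : P022D.Fm.AM O M) ∈ Iv O (RD O) (Kq M M₀) →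
      (1 + Ts O (RD O) M₀ q s) (W2 O (RD O) M M₀ q (zD O M) U.i f) =
        q • ((t φ • f : U.GG M) : P022D.Fm.AM O M))
    {v : U.GG M} (hb : (v : P022D.Fm.AM O M) ∈ Iv O (RD O) (Bq M M₀))
    (h1 : (1 + Ts O (RD O) M₀ q s) (v : P022D.Fm.AM O M) = 0) (h2 : (v : P022D.Fm.AM O M) + v = 0) :
    ((t φ ^ 5 • v : U.GG M) : P022D.Fm.AM O M) ∈ Iv O (RD O) (Kq M M₀) := by
  have hM := sp.Mpos.ne'
  obtain ⟨k, hk⟩ := sp.qodd
  have wb := P022D.Nw.W2_B sp (pzD sp).pow hs U.i hb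
  let x : U.GG M := ⟨_, GG_W sp hs v.2 hb⟩
  let f : U.GG M := ⟨_, GG_Tr sp hs x.2 wb⟩
  have fk : (f : P022D.Fm.AM O M) ∈ Iv O (RD O) (Kq M M₀) := P022D.Nw.Tr_K sp hs wb
  have f2 : f + f = 0 := Subtype.ext (by
    show (1 + Ts O (RD O) M₀ q s) (W2 O (RD O) M M₀ q (zD O M) U.i v) +
      (1 + Ts O (RD O) M₀ q s) (W2 O (RD O) M M₀ q (zD O M) U.i v) = 0
    rw [← map_add, ← map_add, h2, map_zero, map_zero])
  have v2 : v + v = 0 := Subtype.ext h2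
  have ev : ∀ y : U.GG M, y + y = 0 → ∀ m : ℕ, (2 * m) • (y : P022D.Fm.AM O M) = 0 := fun y hy m => by
    rw [mul_comm, mul_nsmul', two_nsmul, ← Submodule.coe_add, hy, Submodule.coe_zero, nsmul_zero]
  have tf : t φ • f + t φ • f = 0 := by rw [← smul_add, f2, smul_zero]
  have a1 := (op_nat h hM (ch_Tr sp hs U.i) φ hb (w := 0) h1.symm).1
  have a2 := (op_nat h hM (ch_W sp hs U.i) φ hb (w := x) rfl).1.2
  have a3 := (op_nat h hM (ch_Tr sp hs U.i) φ (v := x) wb (w := f) rfl).1.2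
  rw [smul_zero] at a1
  have nw := op_newS sp hs h hN hφ (v := t φ • v - f) (sub_mem a1.1 (P022D.Nw.K_B fk))
    (by
      rw [Submodule.coe_sub, map_sub, ← a1.2, P022D.Nw.Tr_of_K sp hs fk,
        show q + 1 = 2 * (k + 1) by omega, ev f f2]
      exact sub_self _)
    (by
      rw [Submodule.coe_sub, map_sub, map_sub, ← a2, ← a3, tl f fk, hk, succ_nsmul, ev _ tf,
        zero_add, sub_self])
  have two : (2 : U.B M) ∈ Ideal.torsionOf (U.B M) _ (t φ • v - f) :=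
    (Ideal.mem_torsionOf_iff _ _).2 (by
      rw [two_smul, ← add_sub_add_comm, ← smul_add, v2, f2, smul_zero, sub_zero])
  have e := sub_mem ((Ideal.mem_torsionOf_iff _ _).2 nw) (Ideal.mul_mem_left _
    (2 * (k * t φ ^ 2 - 2 * (k + 1) ^ 2 * (d φ : U.B M)) *
      ((k + 1) * t φ ^ 2 - 2 * (k + 1) ^ 2 * (d φ : U.B M))) two)
  have e4 : t φ ^ 4 • (t φ • v - f) = 0 := (Ideal.mem_torsionOf_iff _ _).1 (by
    refine Eq.mp (congrArg _ ?_) e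
    rw [hk]
    push_cast
    ring)
  rw [smul_sub, sub_eq_zero, ← mul_sm, ← pow_succ] at e4
  have k4 : ∀ m : ℕ, ((t φ ^ m • f : U.GG M) : P022D.Fm.AM O M) ∈ Iv O (RD O) (Kq M M₀) := by
    intro m
    induction m with
    | zero => rwa [pow_zero, one_smul]
    | succ m ih => rw [pow_succ', mul_sm]; exact (op_iv h hM φ ih).1
  exact e4.symm ▸ k4 4

variable [hC : ∀ l : U.L.C, Fact l.1.Prime]

section dic

variable {M n : ℕ} {X : Dt U M n} {l : U.L.C} (sp : Sp M (M / l.1) l.1)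
  (act : ∀ (g : GL (Fin 2) (ZMod l.1)) (w : U.Wb M n),
    (((X.E.ρ (Pi.mulSingle l (QuotientGroup.mk g)) w : U.Wb M n) : U.GG M) : P022D.Fm.AM O M) =
      P022D.Fm.rD O (P022D.Rep.emb sp g) (w : U.GG M))
include act

end dic

end N6

open Vale.Agent.P022D.Fm.N6 Vale.Agent.P022E.Fm.N6

variable {O F : Type} [CommRing O] [IsLocalRing O] [Co O] [Field F] [CharP F 2] {U : Su O F}

variable [hC : ∀ l : U.L.C, Fact l.1.Prime] {Cc : ∀ l : U.L.C, P022D.Rep.Ch (ZMod l.1) F}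

/-- **row URF** -/
theorem urf6Gs (hU : U.OkS) (lq : LQ U) (dic : DIC U Cc) : URF U Cc := by
  intro r n q P J l hl g w
  obtain ⟨sp, act, -⟩ := dic P.M n (lq.1 _ _ _ _ _ _ P.lv) P.X P.ok
  obtain ⟨_, ⟨w, hw, rfl⟩, hJ⟩ := (w : P.X.Y (P022D.Rep.XJ U.bn Cc J).v)
  have a := (P022E.Fm.N6.fixK (sp l) (act l (sp l)) w).1 ((P.X.E.kill_It l w).1 fun x hx =>
    hw l x (by rwa [P022D.Rep.XJ_out U.bn Cc hl]))
  refine Subtype.ext ?_
  show P.ev (tt (g * U.L.τ l)) • (w : U.GG P.M) = P.ev (tt g) • (w : U.GG P.M)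
  rw [P022E.Fm.N6.ev_tt, P022E.Fm.N6.ev_tt]
  exact P.ok.op.ur _ _ (sp l) _ (P022E.Fm.N6.inert_tauGs hU.ok l.2) _ a g

/-- **row NWF** -/
theorem nwfCGs (hU : U.OkS) (hN : P022S.Gt.NEWD O) (hG : P022S.Gt.GT O) (lq : LQ U) (dic : DIC U Cc)
    (hz : HZ U) : NWF U Cc := by
  intro r n q P J l hl w
  have lm := lq.1 _ _ _ _ _ _ P.lv
  obtain ⟨sp, act, -⟩ := dic P.M n lm P.X P.ok
  obtain ⟨θ, hθ⟩ := (hz r n q P).1
  obtain ⟨_, ⟨w, hw, rfl⟩, hJ⟩ := (w : P.X.Y (P022D.Rep.XJ U.bn Cc J).v)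
  obtain ⟨v, b1, b2, b3⟩ := P022E.Fm.N6.ex_B P.Ec (U.bn l) (Cc l) hθ (P022D.Rep.XJ_in U.bn Cc hl)
    (w := ⟨w, trivial, fun c hc => Subtype.ext (hJ c hc)⟩)
    fun i x hx => Subtype.ext ((P022E.Fm.N6.cut_al P.X.E P.X.JW i x _).trans (hw i x hx))
  replace b2 := (P022E.Fm.N6.cut_al P.X.E P.X.JW l _ v).symm.trans (congrArg Subtype.val b2)
  replace b3 := (P022E.Fm.N6.cut_al P.X.E P.X.JW l _ v).symm.trans (congrArg Subtype.val b3)
  have hs := P022D.Rep.emb_w (sp l)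
  have hφ := P022E.Fm.N6.frob_phiGs hU.ok l.2
  have c := P022E.Fm.N6.coreGs (sp l) hs P.ok.op hU.ok hN hφ (v := v.1.1) (fun f hf =>
      (P022E.Fm.N6.op_tlS (sp l) hs P.ok.op hG (P022E.Fm.N6.three_divGs hU lm.dvd (sp l) l.2) hφ hf).1)
    (P022E.Fm.N6.fixB (sp l) (act l (sp l)) fun b hb => congrArg Subtype.val (b1 b hb))
    ((P022E.Fm.N6.trB_coe (sp l) (act l (sp l)) v.1).symm.trans (by rw [b2]; rfl)) (by
      obtain ⟨y, hy⟩ := hU.uni.dvd 2 (root O P.M lm.odd).2.2.2.2.2.2.2.2.1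
      rw [← two_smul O, hy, mul_comm, mul_smul, P022D.Fm.mem_Tor.1 (P022D.Fm.mem_of_sub v.1.2).2, smul_zero])
  have e := P022E.Fm.N6.kill_G P.X.E (U.bn l) (Cc l)
    ((P022E.Fm.N6.fixK (sp l) (act l (sp l)) (P.X.t (U.L.φ l) ^ 5 • v.1)).2 c)
  rw [map_smul, b3] at e
  refine Subtype.ext ?_
  show P.ev (tt (U.L.φ l) ^ 5) • (w : U.GG P.M) = 0
  rw [map_pow, P022E.Fm.N6.ev_tt]
  exact congrArg Subtype.val e

end Vale.Agent.P022E.Fm
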