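import Vale.Agent.P022E.Fm.Forms
import Vale.Agent.P022S.Fp.Base
import Vale.Agent.P022S.Fp.FmDia
import Vale.Agent.P022S.Fp.FmForms0
import Vale.Agent.P022S.Fp.FmNmH
import Vale.Agent.P022S.Fp.FmNmH66
import Vale.Agent.P022S.Fp.FmNmW
import Vale.Agent.P022S.Fp.FmRows

/-!
# P022D: the forms side
-/

namespace Vale.Agent.P022E.Fm

/-- **the forms side** -/
theorem formsCGs : FORMSGs :=
  forms_nzGs fun _ _ _ _ _ _ _ _ _ _ _ _ hU => H66.nz0_ofGs hU (lqCGs hU) (Nm.hignGs hU (Nm.whpGs hU))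

end Vale.Agent.P022E.Fm
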